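import Vale.Agent.P157.H234.Main

open MeasureTheory ProbabilityTheory Filter Topology

namespace Vale.Agent.Results.P157.GroundState

open Vale.Agent.P157 Par Sph

theorem result :
    (∀ f : ℝ → ℝ, Measurable f → (∃ B, ∀ x, |f x| ≤ B) → ∀ α : ℝ, 0 < α →
      (∃ L : ℝ, Tendsto (meanPressure cube α f) atTop (𝓝 L) ∧
        IsGLB {y | ∃ (k : ℕ) (m q : ℕ → ℝ), Exponents k m ∧ Path k q ∧ q k < 1 ∧
          IsLUB {y | ∃ r, Path k r ∧ y = parisi α f k m q r} y} L) ∧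
      ∃ L : ℝ, Tendsto (meanPressure usphere α f) atTop (𝓝 L) ∧
        IsGLB {y | ∃ (k : ℕ) (m q : ℕ → ℝ), Exponents k m ∧ Path k q ∧ q k < 1 ∧
          y = α * patternPart f k m q + csPart k m q} L) ∧
    (∀ f : ℝ → ℝ, Measurable f → (∃ B, ∀ x, |f x| ≤ B) → ∀ α : ℝ, 0 < α →
      ∃ (L : ℝ → ℝ) (e : ℝ),
        (∀ β : ℝ, 0 < β → Tendsto (meanPressure cube α fun x => β * f x) atTop (𝓝 (L β)) ∧
          IsGLB {y | ∃ (k : ℕ) (m q : ℕ → ℝ), Exponents k m ∧ Path k q ∧ q k < 1 ∧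
            IsLUB {y | ∃ r, Path k r ∧ y = parisi α (fun x => β * f x) k m q r} y} (L β)) ∧
        IsLUB {y | ∃ β, 0 < β ∧ y = L β / β} e ∧
        IsGLB {y | ∃ β, 0 < β ∧ y = (L β + Real.log 2) / β} e ∧
        MaxLimit (gaussianReal 0 1) α f e ∧
        ((∀ᵐ x ∂(volume : Measure ℝ), ContinuousAt f x) →
          ∀ ν : Measure ℝ, IsProbabilityMeasure ν →
          Integrable (fun t => t ^ 2) ν → ∫ t, t ∂ν = 0 → ∫ t, t ^ 2 ∂ν = 1 →
          MaxLimit ν α f e)) ∧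
    ∀ C : Set ℝ, MeasurableSet C → ∃ a : ENNReal, ∀ α : ℝ, 0 < α →
      (ENNReal.ofReal α < a → MaxLimit (gaussianReal 0 1) α (C.indicator fun _ => 1) α) ∧
      (a < ENNReal.ofReal α →
        ∃ e < α, MaxLimit (gaussianReal 0 1) α (C.indicator fun _ => 1) e) :=
  ⟨fun _ hf ⟨_, hB⟩ _ hα => Vale.Agent.P157.H234.formulas hf hB hα,
    fun _ hf ⟨_, hB⟩ _ hα => Vale.Agent.P157.H234.ground hf hB hα,
    fun _ hC => Vale.Agent.P157.H234.storage hC⟩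

end Vale.Agent.Results.P157.GroundState
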