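import Vale.Agent.P157.H770.Main

open MeasureTheory ProbabilityTheory Filter Topology

namespace Vale.Agent.Results.P157.UniversalPerceptron

open Vale.Agent.P157 Par Sph

theorem result (f : ℝ → ℝ) (hf : Measurable f) (B : ℝ) (hB : ∀ x, |f x| ≤ B) (α : ℝ)
    (hα : 0 < α) :
    (∃ L : ℝ, Tendsto (meanPressure cube α f) atTop (𝓝 L) ∧
      IsGLB {y | ∃ (k : ℕ) (m q : ℕ → ℝ), Exponents k m ∧ Path k q ∧ q k < 1 ∧
        IsLUB {y | ∃ r, Path k r ∧ y = parisi α f k m q r} y} L ∧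
      PressureLimit cube (gaussianReal 0 1) α f L ∧
      ((∀ᵐ x ∂(volume : Measure ℝ), ContinuousAt f x) → ∀ ν : Measure ℝ, IsProbabilityMeasure ν →
        Integrable (fun t => t ^ 2) ν → ∫ t, t ∂ν = 0 → ∫ t, t ^ 2 ∂ν = 1 →
        PressureLimit cube ν α f L)) ∧
    (∃ L : ℝ, Tendsto (meanPressure usphere α f) atTop (𝓝 L) ∧
      IsGLB {y | ∃ (k : ℕ) (m q : ℕ → ℝ), Exponents k m ∧ Path k q ∧ q k < 1 ∧
        y = α * patternPart f k m q + csPart k m q} L ∧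
      PressureLimit usphere (gaussianReal 0 1) α f L) ∧
    (∀ ν : Measure ℝ, IsProbabilityMeasure ν → ∀ (M N : ℕ) (μ : Measure (Fin N → ℝ)),
      IsProbabilityMeasure μ → ∀ t : ℝ, 0 ≤ t →
      (entries ν M N).real
          {g | t ≤ |pressure μ f g - ∫ h, pressure μ f h ∂(entries ν M N)|} ≤
        2 * Real.exp (-(t ^ 2 * N ^ 2 / (8 * M * B ^ 2)))) ∧
    ∃ f₀ : ℝ → ℝ, Measurable f₀ ∧ (∀ x, |f₀ x| ≤ 1) ∧
      PressureLimit cube (gaussianReal 0 1) α f₀ 0 ∧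
      PressureLimit cube ((1 / 2 : ENNReal) • (Measure.dirac 1 + Measure.dirac (-1))) α f₀ α := by
  refine ⟨Vale.Agent.P157.H770.cube_part hf hB hα, Vale.Agent.P157.H770.sphere_part hf hB hα,
    ?_, Vale.Agent.P157.H770.f0, Vale.Agent.P157.H770.measurable_f0,
    Vale.Agent.P157.H770.abs_f0_le, Vale.Agent.P157.H770.gauss_limit hα.le,
    Vale.Agent.P157.H770.signs_limit hα.le⟩
  intro ν hν M N μ hμ t ht
  exact Vale.Agent.P157.H770.concentration μ ν hf hB M ht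

end Vale.Agent.Results.P157.UniversalPerceptron
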